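import Vale.Agent.P237.Four.CertBasic

/-!
Data of the rectangle certificate for dimension four: strip 1 of the subdivision.
-/

namespace Vale.Agent.P237.Four.Checker

/-- The rectangle `[5120, 9984) x [0, 7680)` in units of `1 / 25600`. -/
def s1_2 : Tree :=
  .empty

theorem s1_2_ok : checkTree ⟨25600, 5120, 9984, 0, 7680⟩ s1_2 = true := by
  decide +kernel

/-- The rectangle `[5120, 9984) x [7680, 15360)` in units of `1 / 25600`. -/
def s1_4 : Tree :=
  .empty

theorem s1_4_ok : checkTree ⟨25600, 5120, 9984, 7680, 15360⟩ s1_4 = true := by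
  decide +kernel

/-- The rectangle `[5120, 9984) x [15360, 20480)` in units of `1 / 25600`. -/
def s1_5 : Tree :=
  .empty

theorem s1_5_ok : checkTree ⟨25600, 5120, 9984, 15360, 20480⟩ s1_5 = true := by
  decide +kernel

/-- The rectangle `[5120, 9984) x [7680, 20480)`, cut at `15360`. -/
def s1_3 : Tree :=
  .cutY 15360 s1_4 s1_5

theorem s1_3_ok : checkTree ⟨25600, 5120, 9984, 7680, 20480⟩ s1_3 = true :=
  cutY_ok s1_4_ok s1_5_ok

/-- The rectangle `[5120, 9984) x [0, 20480)`, cut at `7680`. -/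
def s1_1 : Tree :=
  .cutY 7680 s1_2 s1_3

theorem s1_1_ok : checkTree ⟨25600, 5120, 9984, 0, 20480⟩ s1_1 = true :=
  cutY_ok s1_2_ok s1_3_ok

/-- The rectangle `[5120, 9984) x [20480, 25600)` in units of `1 / 25600`. -/
def s1_8 : Tree :=
  .leaf ⟨2, 9996, 5064, 10000, 104187, (-31043), 100000, 302000, 977199, 1022801, 300, 1000,
      true, 0, 960000000000000000000, 9381110399999999475712, 0, 0⟩

theorem s1_8_ok : checkTree ⟨25600, 5120, 9984, 20480, 25600⟩ s1_8 = true := by
  decide +kernel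

/-- The rectangle `[5120, 9984) x [25600, 30720)` in units of `1 / 25600`. -/
def s1_9 : Tree :=
  .leaf ⟨1, 10000, 4661, 10000, 104187, (-31043), 100000, 302000, 977199, 1022801, 545, 1000,
      false, 0, 0, 0, 0, 0⟩

theorem s1_9_ok : checkTree ⟨25600, 5120, 9984, 25600, 30720⟩ s1_9 = true := by
  decide +kernel

/-- The rectangle `[5120, 9984) x [20480, 30720)`, cut at `25600`. -/
def s1_7 : Tree :=
  .cutY 25600 s1_8 s1_9

theorem s1_7_ok : checkTree ⟨25600, 5120, 9984, 20480, 30720⟩ s1_7 = true :=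
  cutY_ok s1_8_ok s1_9_ok

/-- The rectangle `[5120, 9984) x [30720, 33280)` in units of `1 / 25600`. -/
def s1_12 : Tree :=
  .leaf ⟨1, 10063, 4363, 10000, 104187, (-31043), 100000, 302000, 977199, 1022801, 806, 1000,
      false, 0, 0, 0, 0, 0⟩

theorem s1_12_ok : checkTree ⟨25600, 5120, 9984, 30720, 33280⟩ s1_12 = true := by
  decide +kernel

/-- The rectangle `[5120, 9984) x [33280, 35840)` in units of `1 / 25600`. -/
def s1_13 : Tree :=
  .leaf ⟨1, 10127, 4138, 10000, 104187, (-31043), 100000, 302000, 977199, 1022801, 954, 1000,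
      false, 0, 0, 0, 0, 0⟩

theorem s1_13_ok : checkTree ⟨25600, 5120, 9984, 33280, 35840⟩ s1_13 = true := by
  decide +kernel

/-- The rectangle `[5120, 9984) x [30720, 35840)`, cut at `33280`. -/
def s1_11 : Tree :=
  .cutY 33280 s1_12 s1_13

theorem s1_11_ok : checkTree ⟨25600, 5120, 9984, 30720, 35840⟩ s1_11 = true :=
  cutY_ok s1_12_ok s1_13_ok

/-- The rectangle `[5120, 9984) x [35840, 42497)` in units of `1 / 25600`. -/
def s1_14 : Tree :=
  .leaf ⟨1, 10283, 3686, 10000, 104187, (-31043), 100000, 302000, 977199, 1022801, 1195, 1000,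
      false, 0, 0, 0, 0, 0⟩

theorem s1_14_ok : checkTree ⟨25600, 5120, 9984, 35840, 42497⟩ s1_14 = true := by
  decide +kernel

/-- The rectangle `[5120, 9984) x [30720, 42497)`, cut at `35840`. -/
def s1_10 : Tree :=
  .cutY 35840 s1_11 s1_14

theorem s1_10_ok : checkTree ⟨25600, 5120, 9984, 30720, 42497⟩ s1_10 = true :=
  cutY_ok s1_11_ok s1_14_ok

/-- The rectangle `[5120, 9984) x [20480, 42497)`, cut at `30720`. -/
def s1_6 : Tree :=
  .cutY 30720 s1_7 s1_10

theorem s1_6_ok : checkTree ⟨25600, 5120, 9984, 20480, 42497⟩ s1_6 = true :=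
  cutY_ok s1_7_ok s1_10_ok

/-- The rectangle `[5120, 9984) x [0, 42497)`, cut at `20480`. -/
def s1_0 : Tree :=
  .cutY 20480 s1_1 s1_6

theorem s1_0_ok : checkTree ⟨25600, 5120, 9984, 0, 42497⟩ s1_0 = true :=
  cutY_ok s1_1_ok s1_6_ok

/-- The subdivision of the strip. -/
def strip1 : Tree := s1_0

theorem strip1_ok : checkTree ⟨25600, 5120, 9984, 0, 42497⟩ strip1 = true := s1_0_ok

end Vale.Agent.P237.Four.Checker
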