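import Vale.Agent.P237.Four.CertBasic

/-!
Data of the rectangle certificate for dimension four: strip 2 of the subdivision.
-/

namespace Vale.Agent.P237.Four.Checker

/-- The rectangle `[9984, 12800) x [0, 7680)` in units of `1 / 25600`. -/
def s2_2 : Tree :=
  .empty

theorem s2_2_ok : checkTree ⟨25600, 9984, 12800, 0, 7680⟩ s2_2 = true := by
  decide +kernel

/-- The rectangle `[9984, 12800) x [7680, 15360)` in units of `1 / 25600`. -/
def s2_4 : Tree :=
  .empty

theorem s2_4_ok : checkTree ⟨25600, 9984, 12800, 7680, 15360⟩ s2_4 = true := by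
  decide +kernel

/-- The rectangle `[9984, 12800) x [15360, 20480)` in units of `1 / 25600`. -/
def s2_5 : Tree :=
  .empty

theorem s2_5_ok : checkTree ⟨25600, 9984, 12800, 15360, 20480⟩ s2_5 = true := by
  decide +kernel

/-- The rectangle `[9984, 12800) x [7680, 20480)`, cut at `15360`. -/
def s2_3 : Tree :=
  .cutY 15360 s2_4 s2_5

theorem s2_3_ok : checkTree ⟨25600, 9984, 12800, 7680, 20480⟩ s2_3 = true :=
  cutY_ok s2_4_ok s2_5_ok

/-- The rectangle `[9984, 12800) x [0, 20480)`, cut at `7680`. -/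
def s2_1 : Tree :=
  .cutY 7680 s2_2 s2_3

theorem s2_1_ok : checkTree ⟨25600, 9984, 12800, 0, 20480⟩ s2_1 = true :=
  cutY_ok s2_2_ok s2_3_ok

/-- The rectangle `[9984, 12800) x [20480, 23040)` in units of `1 / 25600`. -/
def s2_9 : Tree :=
  .leaf ⟨0, 10000, 0, 10000, 111505, (-49809), 100000, 470000, 944775, 1055225, 70, 1000,
      false, 0, 48000000000000000000, 453492000000000000000, 0, 0⟩

theorem s2_9_ok : checkTree ⟨25600, 9984, 12800, 20480, 23040⟩ s2_9 = true := by
  decide +kernel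

/-- The rectangle `[9984, 12800) x [23040, 25600)` in units of `1 / 25600`. -/
def s2_10 : Tree :=
  .leaf ⟨2, 9996, 4956, 10000, 111505, (-49809), 100000, 470000, 944775, 1055225, 317, 1000,
      true, 0, 0, 0, 0, 0⟩

theorem s2_10_ok : checkTree ⟨25600, 9984, 12800, 23040, 25600⟩ s2_10 = true := by
  decide +kernel

/-- The rectangle `[9984, 12800) x [20480, 25600)`, cut at `23040`. -/
def s2_8 : Tree :=
  .cutY 23040 s2_9 s2_10

theorem s2_8_ok : checkTree ⟨25600, 9984, 12800, 20480, 25600⟩ s2_8 = true :=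
  cutY_ok s2_9_ok s2_10_ok

/-- The rectangle `[9984, 12800) x [25600, 28160)` in units of `1 / 25600`. -/
def s2_12 : Tree :=
  .leaf ⟨1, 10006, 4704, 10000, 111505, (-49809), 100000, 470000, 944775, 1055225, 548, 1000,
      false, 0, 0, 0, 0, 0⟩

theorem s2_12_ok : checkTree ⟨25600, 9984, 12800, 25600, 28160⟩ s2_12 = true := by
  decide +kernel

/-- The rectangle `[9984, 12800) x [28160, 30720)` in units of `1 / 25600`. -/
def s2_13 : Tree :=
  .leaf ⟨1, 10064, 4386, 10000, 111505, (-49809), 100000, 470000, 944775, 1055225, 721, 1000,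
      false, 0, 0, 0, 0, 0⟩

theorem s2_13_ok : checkTree ⟨25600, 9984, 12800, 28160, 30720⟩ s2_13 = true := by
  decide +kernel

/-- The rectangle `[9984, 12800) x [25600, 30720)`, cut at `28160`. -/
def s2_11 : Tree :=
  .cutY 28160 s2_12 s2_13

theorem s2_11_ok : checkTree ⟨25600, 9984, 12800, 25600, 30720⟩ s2_11 = true :=
  cutY_ok s2_12_ok s2_13_ok

/-- The rectangle `[9984, 12800) x [20480, 30720)`, cut at `25600`. -/
def s2_7 : Tree :=
  .cutY 25600 s2_8 s2_11

theorem s2_7_ok : checkTree ⟨25600, 9984, 12800, 20480, 30720⟩ s2_7 = true :=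
  cutY_ok s2_8_ok s2_11_ok

/-- The rectangle `[9984, 12800) x [30720, 33280)` in units of `1 / 25600`. -/
def s2_16 : Tree :=
  .leaf ⟨1, 10168, 4074, 10000, 111505, (-49809), 100000, 470000, 944775, 1055225, 872, 1000,
      false, 0, 0, 0, 0, 0⟩

theorem s2_16_ok : checkTree ⟨25600, 9984, 12800, 30720, 33280⟩ s2_16 = true := by
  decide +kernel

/-- The rectangle `[9984, 12800) x [33280, 35840)` in units of `1 / 25600`. -/
def s2_17 : Tree :=
  .leaf ⟨1, 10318, 3773, 10000, 111505, (-49809), 100000, 470000, 944775, 1055225, 1010, 1000,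
      false, 0, 0, 0, 0, 0⟩

theorem s2_17_ok : checkTree ⟨25600, 9984, 12800, 33280, 35840⟩ s2_17 = true := by
  decide +kernel

/-- The rectangle `[9984, 12800) x [30720, 35840)`, cut at `33280`. -/
def s2_15 : Tree :=
  .cutY 33280 s2_16 s2_17

theorem s2_15_ok : checkTree ⟨25600, 9984, 12800, 30720, 35840⟩ s2_15 = true :=
  cutY_ok s2_16_ok s2_17_ok

/-- The rectangle `[9984, 12800) x [35840, 42497)` in units of `1 / 25600`. -/
def s2_18 : Tree :=
  .leaf ⟨1, 10659, 3239, 10000, 111505, (-49809), 100000, 470000, 944775, 1055225, 1241, 1000,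
      false, 0, 0, 0, 0, 0⟩

theorem s2_18_ok : checkTree ⟨25600, 9984, 12800, 35840, 42497⟩ s2_18 = true := by
  decide +kernel

/-- The rectangle `[9984, 12800) x [30720, 42497)`, cut at `35840`. -/
def s2_14 : Tree :=
  .cutY 35840 s2_15 s2_18

theorem s2_14_ok : checkTree ⟨25600, 9984, 12800, 30720, 42497⟩ s2_14 = true :=
  cutY_ok s2_15_ok s2_18_ok

/-- The rectangle `[9984, 12800) x [20480, 42497)`, cut at `30720`. -/
def s2_6 : Tree :=
  .cutY 30720 s2_7 s2_14

theorem s2_6_ok : checkTree ⟨25600, 9984, 12800, 20480, 42497⟩ s2_6 = true :=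
  cutY_ok s2_7_ok s2_14_ok

/-- The rectangle `[9984, 12800) x [0, 42497)`, cut at `20480`. -/
def s2_0 : Tree :=
  .cutY 20480 s2_1 s2_6

theorem s2_0_ok : checkTree ⟨25600, 9984, 12800, 0, 42497⟩ s2_0 = true :=
  cutY_ok s2_1_ok s2_6_ok

/-- The subdivision of the strip. -/
def strip2 : Tree := s2_0

theorem strip2_ok : checkTree ⟨25600, 9984, 12800, 0, 42497⟩ strip2 = true := s2_0_ok

end Vale.Agent.P237.Four.Checker
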