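import Vale.Agent.P237.Four.CertBasic

/-!
Data of the rectangle certificate for dimension four: strip 3 of the subdivision.
-/

namespace Vale.Agent.P237.Four.Checker

/-- The rectangle `[12800, 15360) x [0, 7680)` in units of `1 / 25600`. -/
def s3_2 : Tree :=
  .empty

theorem s3_2_ok : checkTree ⟨25600, 12800, 15360, 0, 7680⟩ s3_2 = true := by
  decide +kernel

/-- The rectangle `[12800, 15360) x [7680, 15360)` in units of `1 / 25600`. -/
def s3_4 : Tree :=
  .empty

theorem s3_4_ok : checkTree ⟨25600, 12800, 15360, 7680, 15360⟩ s3_4 = true := by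
  decide +kernel

/-- The rectangle `[12800, 15360) x [15360, 20480)` in units of `1 / 25600`. -/
def s3_5 : Tree :=
  .empty

theorem s3_5_ok : checkTree ⟨25600, 12800, 15360, 15360, 20480⟩ s3_5 = true := by
  decide +kernel

/-- The rectangle `[12800, 15360) x [7680, 20480)`, cut at `15360`. -/
def s3_3 : Tree :=
  .cutY 15360 s3_4 s3_5

theorem s3_3_ok : checkTree ⟨25600, 12800, 15360, 7680, 20480⟩ s3_3 = true :=
  cutY_ok s3_4_ok s3_5_ok

/-- The rectangle `[12800, 15360) x [0, 20480)`, cut at `7680`. -/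
def s3_1 : Tree :=
  .cutY 7680 s3_2 s3_3

theorem s3_1_ok : checkTree ⟨25600, 12800, 15360, 0, 20480⟩ s3_1 = true :=
  cutY_ok s3_2_ok s3_3_ok

/-- The rectangle `[12800, 15360) x [20480, 23040)` in units of `1 / 25600`. -/
def s3_9 : Tree :=
  .leaf ⟨3, 9998, 4982, 10000, 119614, (-66026), 100000, 600000, 910000, 1090000, 158, 1000,
      false, 0, 0, 0, 0, 0⟩

theorem s3_9_ok : checkTree ⟨25600, 12800, 15360, 20480, 23040⟩ s3_9 = true := by
  decide +kernel

/-- The rectangle `[12800, 15360) x [23040, 25600)` in units of `1 / 25600`. -/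
def s3_10 : Tree :=
  .leaf ⟨2, 9997, 4881, 10000, 119614, (-66026), 100000, 600000, 910000, 1090000, 453, 1000,
      true, 0, 0, 0, 0, 0⟩

theorem s3_10_ok : checkTree ⟨25600, 12800, 15360, 23040, 25600⟩ s3_10 = true := by
  decide +kernel

/-- The rectangle `[12800, 15360) x [20480, 25600)`, cut at `23040`. -/
def s3_8 : Tree :=
  .cutY 23040 s3_9 s3_10

theorem s3_8_ok : checkTree ⟨25600, 12800, 15360, 20480, 25600⟩ s3_8 = true :=
  cutY_ok s3_9_ok s3_10_ok

/-- The rectangle `[12800, 15360) x [25600, 28160)` in units of `1 / 25600`. -/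
def s3_12 : Tree :=
  .leaf ⟨1, 10020, 4583, 10000, 119614, (-66026), 100000, 600000, 910000, 1090000, 636, 1000,
      false, 0, 0, 0, 0, 0⟩

theorem s3_12_ok : checkTree ⟨25600, 12800, 15360, 25600, 28160⟩ s3_12 = true := by
  decide +kernel

/-- The rectangle `[12800, 15360) x [28160, 30720)` in units of `1 / 25600`. -/
def s3_13 : Tree :=
  .leaf ⟨1, 10115, 4209, 10000, 119614, (-66026), 100000, 600000, 910000, 1090000, 791, 1000,
      false, 0, 0, 0, 0, 0⟩

theorem s3_13_ok : checkTree ⟨25600, 12800, 15360, 28160, 30720⟩ s3_13 = true := by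
  decide +kernel

/-- The rectangle `[12800, 15360) x [25600, 30720)`, cut at `28160`. -/
def s3_11 : Tree :=
  .cutY 28160 s3_12 s3_13

theorem s3_11_ok : checkTree ⟨25600, 12800, 15360, 25600, 30720⟩ s3_11 = true :=
  cutY_ok s3_12_ok s3_13_ok

/-- The rectangle `[12800, 15360) x [20480, 30720)`, cut at `25600`. -/
def s3_7 : Tree :=
  .cutY 25600 s3_8 s3_11

theorem s3_7_ok : checkTree ⟨25600, 12800, 15360, 20480, 30720⟩ s3_7 = true :=
  cutY_ok s3_8_ok s3_11_ok

/-- The rectangle `[12800, 14080) x [30720, 33280)` in units of `1 / 25600`. -/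
def s3_17 : Tree :=
  .leaf ⟨1, 10249, 3915, 10000, 117462, (-61722), 100000, 568000, 919344, 1080656, 915, 1000,
      false, 0, 0, 0, 0, 0⟩

theorem s3_17_ok : checkTree ⟨25600, 12800, 14080, 30720, 33280⟩ s3_17 = true := by
  decide +kernel

/-- The rectangle `[14080, 15360) x [30720, 33280)` in units of `1 / 25600`. -/
def s3_18 : Tree :=
  .leaf ⟨1, 10308, 3805, 10000, 122196, (-70330), 100000, 632000, 900144, 1099856, 945, 1000,
      false, 0, 0, 0, 0, 0⟩

theorem s3_18_ok : checkTree ⟨25600, 14080, 15360, 30720, 33280⟩ s3_18 = true := by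
  decide +kernel

/-- The rectangle `[12800, 15360) x [30720, 33280)`, cut at `14080`. -/
def s3_16 : Tree :=
  .cutT 14080 s3_17 s3_18

theorem s3_16_ok : checkTree ⟨25600, 12800, 15360, 30720, 33280⟩ s3_16 = true :=
  cutT_ok s3_17_ok s3_18_ok

/-- The rectangle `[12800, 15360) x [33280, 35840)` in units of `1 / 25600`. -/
def s3_19 : Tree :=
  .leaf ⟨1, 10494, 3513, 10000, 119614, (-66026), 100000, 600000, 910000, 1090000, 1061, 1000,
      false, 0, 0, 0, 0, 0⟩

theorem s3_19_ok : checkTree ⟨25600, 12800, 15360, 33280, 35840⟩ s3_19 = true := by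
  decide +kernel

/-- The rectangle `[12800, 15360) x [30720, 35840)`, cut at `33280`. -/
def s3_15 : Tree :=
  .cutY 33280 s3_16 s3_19

theorem s3_15_ok : checkTree ⟨25600, 12800, 15360, 30720, 35840⟩ s3_15 = true :=
  cutY_ok s3_16_ok s3_19_ok

/-- The rectangle `[12800, 15360) x [35840, 42497)` in units of `1 / 25600`. -/
def s3_20 : Tree :=
  .leaf ⟨1, 10969, 2941, 10000, 119614, (-66026), 100000, 600000, 910000, 1090000, 1282, 1000,
      false, 0, 0, 0, 0, 0⟩

theorem s3_20_ok : checkTree ⟨25600, 12800, 15360, 35840, 42497⟩ s3_20 = true := by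
  decide +kernel

/-- The rectangle `[12800, 15360) x [30720, 42497)`, cut at `35840`. -/
def s3_14 : Tree :=
  .cutY 35840 s3_15 s3_20

theorem s3_14_ok : checkTree ⟨25600, 12800, 15360, 30720, 42497⟩ s3_14 = true :=
  cutY_ok s3_15_ok s3_20_ok

/-- The rectangle `[12800, 15360) x [20480, 42497)`, cut at `30720`. -/
def s3_6 : Tree :=
  .cutY 30720 s3_7 s3_14

theorem s3_6_ok : checkTree ⟨25600, 12800, 15360, 20480, 42497⟩ s3_6 = true :=
  cutY_ok s3_7_ok s3_14_ok

/-- The rectangle `[12800, 15360) x [0, 42497)`, cut at `20480`. -/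
def s3_0 : Tree :=
  .cutY 20480 s3_1 s3_6

theorem s3_0_ok : checkTree ⟨25600, 12800, 15360, 0, 42497⟩ s3_0 = true :=
  cutY_ok s3_1_ok s3_6_ok

/-- The subdivision of the strip. -/
def strip3 : Tree := s3_0

theorem strip3_ok : checkTree ⟨25600, 12800, 15360, 0, 42497⟩ strip3 = true := s3_0_ok

end Vale.Agent.P237.Four.Checker
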