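import Vale.Agent.P237.Four.CertBasic

/-!
Data of the rectangle certificate for dimension four: strip 4 of the subdivision.
-/

namespace Vale.Agent.P237.Four.Checker

/-- The rectangle `[15360, 17920) x [0, 7680)` in units of `1 / 25600`. -/
def s4_2 : Tree :=
  .empty

theorem s4_2_ok : checkTree ⟨25600, 15360, 17920, 0, 7680⟩ s4_2 = true := by
  decide +kernel

/-- The rectangle `[15360, 17920) x [7680, 15360)` in units of `1 / 25600`. -/
def s4_4 : Tree :=
  .empty

theorem s4_4_ok : checkTree ⟨25600, 15360, 17920, 7680, 15360⟩ s4_4 = true := by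
  decide +kernel

/-- The rectangle `[15360, 17920) x [15360, 20480)` in units of `1 / 25600`. -/
def s4_5 : Tree :=
  .leaf ⟨3, 9997, 5043, 10000, 131513, (-85858), 100000, 738000, 863839, 1136161, 300, 1000,
      false, 0, 0, 0, 0, 0⟩

theorem s4_5_ok : checkTree ⟨25600, 15360, 17920, 15360, 20480⟩ s4_5 = true := by
  decide +kernel

/-- The rectangle `[15360, 17920) x [7680, 20480)`, cut at `15360`. -/
def s4_3 : Tree :=
  .cutY 15360 s4_4 s4_5

theorem s4_3_ok : checkTree ⟨25600, 15360, 17920, 7680, 20480⟩ s4_3 = true :=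
  cutY_ok s4_4_ok s4_5_ok

/-- The rectangle `[15360, 17920) x [0, 20480)`, cut at `7680`. -/
def s4_1 : Tree :=
  .cutY 7680 s4_2 s4_3

theorem s4_1_ok : checkTree ⟨25600, 15360, 17920, 0, 20480⟩ s4_1 = true :=
  cutY_ok s4_2_ok s4_3_ok

/-- The rectangle `[15360, 17920) x [20480, 23040)` in units of `1 / 25600`. -/
def s4_9 : Tree :=
  .leaf ⟨3, 9998, 4926, 10000, 131513, (-85858), 100000, 738000, 863839, 1136161, 381, 1000,
      false, 0, 0, 0, 0, 0⟩

theorem s4_9_ok : checkTree ⟨25600, 15360, 17920, 20480, 23040⟩ s4_9 = true := by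
  decide +kernel

/-- The rectangle `[15360, 16640) x [23040, 25600)` in units of `1 / 25600`. -/
def s4_11 : Tree :=
  .leaf ⟨2, 10002, 4809, 10000, 128078, (-80132), 100000, 702000, 876799, 1123201, 541, 1000,
      false, 0, 0, 0, 0, 0⟩

theorem s4_11_ok : checkTree ⟨25600, 15360, 16640, 23040, 25600⟩ s4_11 = true := by
  decide +kernel

/-- The rectangle `[16640, 17920) x [23040, 25600)` in units of `1 / 25600`. -/
def s4_12 : Tree :=
  .leaf ⟨2, 10007, 4743, 10000, 135521, (-91583), 100000, 776000, 849456, 1150544, 598, 1000,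
      false, 0, 0, 0, 0, 0⟩

theorem s4_12_ok : checkTree ⟨25600, 16640, 17920, 23040, 25600⟩ s4_12 = true := by
  decide +kernel

/-- The rectangle `[15360, 17920) x [23040, 25600)`, cut at `16640`. -/
def s4_10 : Tree :=
  .cutT 16640 s4_11 s4_12

theorem s4_10_ok : checkTree ⟨25600, 15360, 17920, 23040, 25600⟩ s4_10 = true :=
  cutT_ok s4_11_ok s4_12_ok

/-- The rectangle `[15360, 17920) x [20480, 25600)`, cut at `23040`. -/
def s4_8 : Tree :=
  .cutY 23040 s4_9 s4_10

theorem s4_8_ok : checkTree ⟨25600, 15360, 17920, 20480, 25600⟩ s4_8 = true :=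
  cutY_ok s4_9_ok s4_10_ok

/-- The rectangle `[15360, 16640) x [25600, 28160)` in units of `1 / 25600`. -/
def s4_15 : Tree :=
  .leaf ⟨1, 10040, 4485, 10000, 128078, (-80132), 100000, 702000, 876799, 1123201, 702, 1000,
      false, 0, 0, 0, 0, 0⟩

theorem s4_15_ok : checkTree ⟨25600, 15360, 16640, 25600, 28160⟩ s4_15 = true := by
  decide +kernel

/-- The rectangle `[16640, 17280) x [25600, 26880)` in units of `1 / 25600`. -/
def s4_18 : Tree :=
  .leaf ⟨1, 10039, 4542, 10000, 133495, (-88466), 100000, 758000, 856359, 1143641, 700, 1000,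
      false, 0, 0, 0, 0, 0⟩

theorem s4_18_ok : checkTree ⟨25600, 16640, 17280, 25600, 26880⟩ s4_18 = true := by
  decide +kernel

/-- The rectangle `[17280, 17920) x [25600, 26880)` in units of `1 / 25600`. -/
def s4_19 : Tree :=
  .leaf ⟨1, 10047, 4501, 10000, 137703, (-94700), 100000, 796000, 841596, 1158404, 723, 1000,
      false, 0, 0, 0, 0, 0⟩

theorem s4_19_ok : checkTree ⟨25600, 17280, 17920, 25600, 26880⟩ s4_19 = true := by
  decide +kernel

/-- The rectangle `[16640, 17920) x [25600, 26880)`, cut at `17280`. -/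
def s4_17 : Tree :=
  .cutT 17280 s4_18 s4_19

theorem s4_17_ok : checkTree ⟨25600, 16640, 17920, 25600, 26880⟩ s4_17 = true :=
  cutT_ok s4_18_ok s4_19_ok

/-- The rectangle `[16640, 17920) x [26880, 28160)` in units of `1 / 25600`. -/
def s4_20 : Tree :=
  .leaf ⟨1, 10098, 4299, 10000, 135521, (-91583), 100000, 776000, 849456, 1150544, 782, 1000,
      false, 0, 0, 0, 0, 0⟩

theorem s4_20_ok : checkTree ⟨25600, 16640, 17920, 26880, 28160⟩ s4_20 = true := by
  decide +kernel

/-- The rectangle `[16640, 17920) x [25600, 28160)`, cut at `26880`. -/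
def s4_16 : Tree :=
  .cutY 26880 s4_17 s4_20

theorem s4_16_ok : checkTree ⟨25600, 16640, 17920, 25600, 28160⟩ s4_16 = true :=
  cutY_ok s4_17_ok s4_20_ok

/-- The rectangle `[15360, 17920) x [25600, 28160)`, cut at `16640`. -/
def s4_14 : Tree :=
  .cutT 16640 s4_15 s4_16

theorem s4_14_ok : checkTree ⟨25600, 15360, 17920, 25600, 28160⟩ s4_14 = true :=
  cutT_ok s4_15_ok s4_16_ok

/-- The rectangle `[15360, 17920) x [28160, 30720)` in units of `1 / 25600`. -/
def s4_21 : Tree :=
  .leaf ⟨1, 10188, 4018, 10000, 131513, (-85858), 100000, 738000, 863839, 1136161, 863, 1000,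
      false, 0, 0, 0, 0, 0⟩

theorem s4_21_ok : checkTree ⟨25600, 15360, 17920, 28160, 30720⟩ s4_21 = true := by
  decide +kernel

/-- The rectangle `[15360, 17920) x [25600, 30720)`, cut at `28160`. -/
def s4_13 : Tree :=
  .cutY 28160 s4_14 s4_21

theorem s4_13_ok : checkTree ⟨25600, 15360, 17920, 25600, 30720⟩ s4_13 = true :=
  cutY_ok s4_14_ok s4_21_ok

/-- The rectangle `[15360, 17920) x [20480, 30720)`, cut at `25600`. -/
def s4_7 : Tree :=
  .cutY 25600 s4_8 s4_13

theorem s4_7_ok : checkTree ⟨25600, 15360, 17920, 20480, 30720⟩ s4_7 = true :=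
  cutY_ok s4_8_ok s4_13_ok

/-- The rectangle `[15360, 17920) x [30720, 35840)` in units of `1 / 25600`. -/
def s4_23 : Tree :=
  .leaf ⟨1, 10508, 3429, 10000, 131513, (-85858), 100000, 738000, 863839, 1136161, 1055, 1000,
      false, 0, 0, 0, 0, 0⟩

theorem s4_23_ok : checkTree ⟨25600, 15360, 17920, 30720, 35840⟩ s4_23 = true := by
  decide +kernel

/-- The rectangle `[15360, 17920) x [35840, 42497)` in units of `1 / 25600`. -/
def s4_24 : Tree :=
  .leaf ⟨1, 11308, 2675, 10000, 131513, (-85858), 100000, 738000, 863839, 1136161, 1328, 1000,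
      false, 0, 0, 0, 0, 0⟩

theorem s4_24_ok : checkTree ⟨25600, 15360, 17920, 35840, 42497⟩ s4_24 = true := by
  decide +kernel

/-- The rectangle `[15360, 17920) x [30720, 42497)`, cut at `35840`. -/
def s4_22 : Tree :=
  .cutY 35840 s4_23 s4_24

theorem s4_22_ok : checkTree ⟨25600, 15360, 17920, 30720, 42497⟩ s4_22 = true :=
  cutY_ok s4_23_ok s4_24_ok

/-- The rectangle `[15360, 17920) x [20480, 42497)`, cut at `30720`. -/
def s4_6 : Tree :=
  .cutY 30720 s4_7 s4_22

theorem s4_6_ok : checkTree ⟨25600, 15360, 17920, 20480, 42497⟩ s4_6 = true :=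
  cutY_ok s4_7_ok s4_22_ok

/-- The rectangle `[15360, 17920) x [0, 42497)`, cut at `20480`. -/
def s4_0 : Tree :=
  .cutY 20480 s4_1 s4_6

theorem s4_0_ok : checkTree ⟨25600, 15360, 17920, 0, 42497⟩ s4_0 = true :=
  cutY_ok s4_1_ok s4_6_ok

/-- The subdivision of the strip. -/
def strip4 : Tree := s4_0

theorem strip4_ok : checkTree ⟨25600, 15360, 17920, 0, 42497⟩ strip4 = true := s4_0_ok

end Vale.Agent.P237.Four.Checker
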