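import Vale.Agent.P237.Four.CertBasic

/-!
Data of the rectangle certificate for dimension four: strip 5 of the subdivision.
-/

namespace Vale.Agent.P237.Four.Checker

/-- The rectangle `[17920, 20480) x [0, 7680)` in units of `1 / 25600`. -/
def s5_2 : Tree :=
  .empty

theorem s5_2_ok : checkTree ⟨25600, 17920, 20480, 0, 7680⟩ s5_2 = true := by
  decide +kernel

/-- The rectangle `[17920, 20480) x [7680, 15360)` in units of `1 / 25600`. -/
def s5_4 : Tree :=
  .empty

theorem s5_4_ok : checkTree ⟨25600, 17920, 20480, 7680, 15360⟩ s5_4 = true := by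
  decide +kernel

/-- The rectangle `[17920, 20480) x [15360, 17920)` in units of `1 / 25600`. -/
def s5_6 : Tree :=
  .leaf ⟨3, 9997, 5043, 10000, 151313, (-114143), 100000, 902000, 796599, 1203401, 300, 1000,
      false, 0, 0, 0, 0, 0⟩

theorem s5_6_ok : checkTree ⟨25600, 17920, 20480, 15360, 17920⟩ s5_6 = true := by
  decide +kernel

/-- The rectangle `[17920, 20480) x [17920, 20480)` in units of `1 / 25600`. -/
def s5_7 : Tree :=
  .leaf ⟨3, 9997, 4937, 10000, 151313, (-114143), 100000, 902000, 796599, 1203401, 354, 1000,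
      false, 0, 0, 0, 0, 0⟩

theorem s5_7_ok : checkTree ⟨25600, 17920, 20480, 17920, 20480⟩ s5_7 = true := by
  decide +kernel

/-- The rectangle `[17920, 20480) x [15360, 20480)`, cut at `17920`. -/
def s5_5 : Tree :=
  .cutY 17920 s5_6 s5_7

theorem s5_5_ok : checkTree ⟨25600, 17920, 20480, 15360, 20480⟩ s5_5 = true :=
  cutY_ok s5_6_ok s5_7_ok

/-- The rectangle `[17920, 20480) x [7680, 20480)`, cut at `15360`. -/
def s5_3 : Tree :=
  .cutY 15360 s5_4 s5_5

theorem s5_3_ok : checkTree ⟨25600, 17920, 20480, 7680, 20480⟩ s5_3 = true :=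
  cutY_ok s5_4_ok s5_5_ok

/-- The rectangle `[17920, 20480) x [0, 20480)`, cut at `7680`. -/
def s5_1 : Tree :=
  .cutY 7680 s5_2 s5_3

theorem s5_1_ok : checkTree ⟨25600, 17920, 20480, 0, 20480⟩ s5_1 = true :=
  cutY_ok s5_2_ok s5_3_ok

/-- The rectangle `[17920, 20480) x [20480, 23040)` in units of `1 / 25600`. -/
def s5_11 : Tree :=
  .leaf ⟨3, 10002, 4826, 10000, 151313, (-114143), 100000, 902000, 796599, 1203401, 534, 1000,
      false, 0, 0, 0, 0, 0⟩

theorem s5_11_ok : checkTree ⟨25600, 17920, 20480, 20480, 23040⟩ s5_11 = true := by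
  decide +kernel

/-- The rectangle `[17920, 19200) x [23040, 24320)` in units of `1 / 25600`. -/
def s5_14 : Tree :=
  .leaf ⟨2, 10011, 4730, 10000, 145200, (-105411), 100000, 858000, 815959, 1184041, 617, 1000,
      false, 0, 0, 0, 0, 0⟩

theorem s5_14_ok : checkTree ⟨25600, 17920, 19200, 23040, 24320⟩ s5_14 = true := by
  decide +kernel

/-- The rectangle `[17920, 18560) x [24320, 25600)` in units of `1 / 25600`. -/
def s5_16 : Tree :=
  .leaf ⟨2, 10025, 4634, 10000, 142516, (-101576), 100000, 838000, 824439, 1175561, 677, 1000,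
      false, 0, 0, 0, 0, 0⟩

theorem s5_16_ok : checkTree ⟨25600, 17920, 18560, 24320, 25600⟩ s5_16 = true := by
  decide +kernel

/-- The rectangle `[18560, 19200) x [24320, 25600)` in units of `1 / 25600`. -/
def s5_17 : Tree :=
  .leaf ⟨2, 10032, 4592, 10000, 148076, (-109245), 100000, 880000, 806400, 1193600, 703, 1000,
      false, 0, 0, 0, 0, 0⟩

theorem s5_17_ok : checkTree ⟨25600, 18560, 19200, 24320, 25600⟩ s5_17 = true := by
  decide +kernel

/-- The rectangle `[17920, 19200) x [24320, 25600)`, cut at `18560`. -/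
def s5_15 : Tree :=
  .cutT 18560 s5_16 s5_17

theorem s5_15_ok : checkTree ⟨25600, 17920, 19200, 24320, 25600⟩ s5_15 = true :=
  cutT_ok s5_16_ok s5_17_ok

/-- The rectangle `[17920, 19200) x [23040, 25600)`, cut at `24320`. -/
def s5_13 : Tree :=
  .cutY 24320 s5_14 s5_15

theorem s5_13_ok : checkTree ⟨25600, 17920, 19200, 23040, 25600⟩ s5_13 = true :=
  cutY_ok s5_14_ok s5_15_ok

/-- The rectangle `[19200, 20480) x [23040, 24320)` in units of `1 / 25600`. -/
def s5_19 : Tree :=
  .leaf ⟨2, 10022, 4647, 10000, 158299, (-122876), 100000, 950000, 774375, 1225625, 675, 1000,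
      false, 0, 0, 0, 0, 0⟩

theorem s5_19_ok : checkTree ⟨25600, 19200, 20480, 23040, 24320⟩ s5_19 = true := by
  decide +kernel

/-- The rectangle `[19200, 20480) x [24320, 25600)` in units of `1 / 25600`. -/
def s5_20 : Tree :=
  .leaf ⟨2, 10044, 4523, 10000, 158299, (-122876), 100000, 950000, 774375, 1225625, 742, 1000,
      false, 0, 0, 0, 0, 0⟩

theorem s5_20_ok : checkTree ⟨25600, 19200, 20480, 24320, 25600⟩ s5_20 = true := by
  decide +kernel

/-- The rectangle `[19200, 20480) x [23040, 25600)`, cut at `24320`. -/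
def s5_18 : Tree :=
  .cutY 24320 s5_19 s5_20

theorem s5_18_ok : checkTree ⟨25600, 19200, 20480, 23040, 25600⟩ s5_18 = true :=
  cutY_ok s5_19_ok s5_20_ok

/-- The rectangle `[17920, 20480) x [23040, 25600)`, cut at `19200`. -/
def s5_12 : Tree :=
  .cutT 19200 s5_13 s5_18

theorem s5_12_ok : checkTree ⟨25600, 17920, 20480, 23040, 25600⟩ s5_12 = true :=
  cutT_ok s5_13_ok s5_18_ok

/-- The rectangle `[17920, 20480) x [20480, 25600)`, cut at `23040`. -/
def s5_10 : Tree :=
  .cutY 23040 s5_11 s5_12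

theorem s5_10_ok : checkTree ⟨25600, 17920, 20480, 20480, 25600⟩ s5_10 = true :=
  cutY_ok s5_11_ok s5_12_ok

/-- The rectangle `[17920, 18560) x [25600, 26240)` in units of `1 / 25600`. -/
def s5_26 : Tree :=
  .leaf ⟨1, 10046, 4517, 10000, 142516, (-101576), 100000, 838000, 824439, 1175561, 730, 1000,
      false, 0, 0, 0, 0, 0⟩

theorem s5_26_ok : checkTree ⟨25600, 17920, 18560, 25600, 26240⟩ s5_26 = true := by
  decide +kernel

/-- The rectangle `[17920, 18560) x [26240, 26880)` in units of `1 / 25600`. -/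
def s5_27 : Tree :=
  .leaf ⟨1, 10073, 4402, 10000, 142516, (-101576), 100000, 838000, 824439, 1175561, 764, 1000,
      false, 0, 0, 0, 0, 0⟩

theorem s5_27_ok : checkTree ⟨25600, 17920, 18560, 26240, 26880⟩ s5_27 = true := by
  decide +kernel

/-- The rectangle `[17920, 18560) x [25600, 26880)`, cut at `26240`. -/
def s5_25 : Tree :=
  .cutY 26240 s5_26 s5_27

theorem s5_25_ok : checkTree ⟨25600, 17920, 18560, 25600, 26880⟩ s5_25 = true :=
  cutY_ok s5_26_ok s5_27_ok

/-- The rectangle `[18560, 19200) x [25600, 26880)` in units of `1 / 25600`. -/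
def s5_28 : Tree :=
  .leaf ⟨1, 10067, 4413, 10000, 148076, (-109245), 100000, 880000, 806400, 1193600, 771, 1000,
      false, 0, 0, 0, 0, 0⟩

theorem s5_28_ok : checkTree ⟨25600, 18560, 19200, 25600, 26880⟩ s5_28 = true := by
  decide +kernel

/-- The rectangle `[17920, 19200) x [25600, 26880)`, cut at `18560`. -/
def s5_24 : Tree :=
  .cutT 18560 s5_25 s5_28

theorem s5_24_ok : checkTree ⟨25600, 17920, 19200, 25600, 26880⟩ s5_24 = true :=
  cutT_ok s5_25_ok s5_28_ok

/-- The rectangle `[17920, 19200) x [26880, 28160)` in units of `1 / 25600`. -/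
def s5_29 : Tree :=
  .leaf ⟨1, 10130, 4204, 10000, 145200, (-105411), 100000, 858000, 815959, 1184041, 825, 1000,
      false, 0, 0, 0, 0, 0⟩

theorem s5_29_ok : checkTree ⟨25600, 17920, 19200, 26880, 28160⟩ s5_29 = true := by
  decide +kernel

/-- The rectangle `[17920, 19200) x [25600, 28160)`, cut at `26880`. -/
def s5_23 : Tree :=
  .cutY 26880 s5_24 s5_29

theorem s5_23_ok : checkTree ⟨25600, 17920, 19200, 25600, 28160⟩ s5_23 = true :=
  cutY_ok s5_24_ok s5_29_ok

/-- The rectangle `[19200, 20480) x [25600, 28160)` in units of `1 / 25600`. -/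
def s5_30 : Tree :=
  .leaf ⟨1, 10111, 4214, 10000, 158299, (-122876), 100000, 950000, 774375, 1225625, 839, 1000,
      false, 0, 0, 0, 0, 0⟩

theorem s5_30_ok : checkTree ⟨25600, 19200, 20480, 25600, 28160⟩ s5_30 = true := by
  decide +kernel

/-- The rectangle `[17920, 20480) x [25600, 28160)`, cut at `19200`. -/
def s5_22 : Tree :=
  .cutT 19200 s5_23 s5_30

theorem s5_22_ok : checkTree ⟨25600, 17920, 20480, 25600, 28160⟩ s5_22 = true :=
  cutT_ok s5_23_ok s5_30_ok

/-- The rectangle `[17920, 20480) x [28160, 30720)` in units of `1 / 25600`. -/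
def s5_31 : Tree :=
  .leaf ⟨1, 10291, 3807, 10000, 151313, (-114143), 100000, 902000, 796599, 1203401, 941, 1000,
      false, 0, 0, 0, 0, 0⟩

theorem s5_31_ok : checkTree ⟨25600, 17920, 20480, 28160, 30720⟩ s5_31 = true := by
  decide +kernel

/-- The rectangle `[17920, 20480) x [25600, 30720)`, cut at `28160`. -/
def s5_21 : Tree :=
  .cutY 28160 s5_22 s5_31

theorem s5_21_ok : checkTree ⟨25600, 17920, 20480, 25600, 30720⟩ s5_21 = true :=
  cutY_ok s5_22_ok s5_31_ok

/-- The rectangle `[17920, 20480) x [20480, 30720)`, cut at `25600`. -/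
def s5_9 : Tree :=
  .cutY 25600 s5_10 s5_21

theorem s5_9_ok : checkTree ⟨25600, 17920, 20480, 20480, 30720⟩ s5_9 = true :=
  cutY_ok s5_10_ok s5_21_ok

/-- The rectangle `[17920, 20480) x [30720, 35840)` in units of `1 / 25600`. -/
def s5_33 : Tree :=
  .leaf ⟨1, 10710, 3193, 10000, 151313, (-114143), 100000, 902000, 796599, 1203401, 1119, 1000,
      false, 0, 0, 0, 0, 0⟩

theorem s5_33_ok : checkTree ⟨25600, 17920, 20480, 30720, 35840⟩ s5_33 = true := by
  decide +kernel

/-- The rectangle `[17920, 20480) x [35840, 42497)` in units of `1 / 25600`. -/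
def s5_34 : Tree :=
  .leaf ⟨1, 11690, 2427, 10000, 151313, (-114143), 100000, 902000, 796599, 1203401, 1380, 1000,
      false, 0, 0, 0, 0, 0⟩

theorem s5_34_ok : checkTree ⟨25600, 17920, 20480, 35840, 42497⟩ s5_34 = true := by
  decide +kernel

/-- The rectangle `[17920, 20480) x [30720, 42497)`, cut at `35840`. -/
def s5_32 : Tree :=
  .cutY 35840 s5_33 s5_34

theorem s5_32_ok : checkTree ⟨25600, 17920, 20480, 30720, 42497⟩ s5_32 = true :=
  cutY_ok s5_33_ok s5_34_ok

/-- The rectangle `[17920, 20480) x [20480, 42497)`, cut at `30720`. -/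
def s5_8 : Tree :=
  .cutY 30720 s5_9 s5_32

theorem s5_8_ok : checkTree ⟨25600, 17920, 20480, 20480, 42497⟩ s5_8 = true :=
  cutY_ok s5_9_ok s5_32_ok

/-- The rectangle `[17920, 20480) x [0, 42497)`, cut at `20480`. -/
def s5_0 : Tree :=
  .cutY 20480 s5_1 s5_8

theorem s5_0_ok : checkTree ⟨25600, 17920, 20480, 0, 42497⟩ s5_0 = true :=
  cutY_ok s5_1_ok s5_8_ok

/-- The subdivision of the strip. -/
def strip5 : Tree := s5_0

theorem strip5_ok : checkTree ⟨25600, 17920, 20480, 0, 42497⟩ strip5 = true := s5_0_ok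

end Vale.Agent.P237.Four.Checker
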