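import Vale.Agent.P237.Four.CertBasic

/-!
Data of the rectangle certificate for dimension four: strip 6 of the subdivision.
-/

namespace Vale.Agent.P237.Four.Checker

/-- The rectangle `[20480, 23040) x [0, 7680)` in units of `1 / 25600`. -/
def s6_2 : Tree :=
  .empty

theorem s6_2_ok : checkTree ⟨25600, 20480, 23040, 0, 7680⟩ s6_2 = true := by
  decide +kernel

/-- The rectangle `[20480, 23040) x [7680, 15360)` in units of `1 / 25600`. -/
def s6_4 : Tree :=
  .leaf ⟨3, 9995, 5161, 10000, 191287, (-164111), 100000, 1114000, 689751, 1310249, 300, 1000,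
      false, 0, 0, 0, 0, 0⟩

theorem s6_4_ok : checkTree ⟨25600, 20480, 23040, 7680, 15360⟩ s6_4 = true := by
  decide +kernel

/-- The rectangle `[20480, 23040) x [15360, 17920)` in units of `1 / 25600`. -/
def s6_6 : Tree :=
  .leaf ⟨3, 9996, 4943, 10000, 191287, (-164111), 100000, 1114000, 689751, 1310249, 381, 1000,
      false, 0, 0, 0, 0, 0⟩

theorem s6_6_ok : checkTree ⟨25600, 20480, 23040, 15360, 17920⟩ s6_6 = true := by
  decide +kernel

/-- The rectangle `[20480, 23040) x [17920, 20480)` in units of `1 / 25600`. -/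
def s6_7 : Tree :=
  .leaf ⟨3, 10001, 4813, 10000, 191287, (-164111), 100000, 1114000, 689751, 1310249, 374, 1000,
      false, 0, 0, 0, 0, 0⟩

theorem s6_7_ok : checkTree ⟨25600, 20480, 23040, 17920, 20480⟩ s6_7 = true := by
  decide +kernel

/-- The rectangle `[20480, 23040) x [15360, 20480)`, cut at `17920`. -/
def s6_5 : Tree :=
  .cutY 17920 s6_6 s6_7

theorem s6_5_ok : checkTree ⟨25600, 20480, 23040, 15360, 20480⟩ s6_5 = true :=
  cutY_ok s6_6_ok s6_7_ok

/-- The rectangle `[20480, 23040) x [7680, 20480)`, cut at `15360`. -/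
def s6_3 : Tree :=
  .cutY 15360 s6_4 s6_5

theorem s6_3_ok : checkTree ⟨25600, 20480, 23040, 7680, 20480⟩ s6_3 = true :=
  cutY_ok s6_4_ok s6_5_ok

/-- The rectangle `[20480, 23040) x [0, 20480)`, cut at `7680`. -/
def s6_1 : Tree :=
  .cutY 7680 s6_2 s6_3

theorem s6_1_ok : checkTree ⟨25600, 20480, 23040, 0, 20480⟩ s6_1 = true :=
  cutY_ok s6_2_ok s6_3_ok

/-- The rectangle `[20480, 23040) x [20480, 25600)` in units of `1 / 25600`. -/
def s6_10 : Tree :=
  .leaf ⟨2, 10012, 4546, 10000, 191287, (-164111), 100000, 1114000, 689751, 1310249, 730, 1000,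
      false, 0, 0, 0, 0, 0⟩

theorem s6_10_ok : checkTree ⟨25600, 20480, 23040, 20480, 25600⟩ s6_10 = true := by
  decide +kernel

/-- The rectangle `[20480, 23040) x [25600, 30720)` in units of `1 / 25600`. -/
def s6_11 : Tree :=
  .leaf ⟨1, 10231, 3791, 10000, 191287, (-164111), 100000, 1114000, 689751, 1310249, 966, 1000,
      false, 0, 0, 0, 0, 0⟩

theorem s6_11_ok : checkTree ⟨25600, 20480, 23040, 25600, 30720⟩ s6_11 = true := by
  decide +kernel

/-- The rectangle `[20480, 23040) x [20480, 30720)`, cut at `25600`. -/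
def s6_9 : Tree :=
  .cutY 25600 s6_10 s6_11

theorem s6_9_ok : checkTree ⟨25600, 20480, 23040, 20480, 30720⟩ s6_9 = true :=
  cutY_ok s6_10_ok s6_11_ok

/-- The rectangle `[20480, 23040) x [30720, 35840)` in units of `1 / 25600`. -/
def s6_13 : Tree :=
  .leaf ⟨1, 10960, 2954, 10000, 191287, (-164111), 100000, 1114000, 689751, 1310249, 1188,
      1000, false, 0, 0, 0, 0, 0⟩

theorem s6_13_ok : checkTree ⟨25600, 20480, 23040, 30720, 35840⟩ s6_13 = true := by
  decide +kernel

/-- The rectangle `[20480, 23040) x [35840, 39168)` in units of `1 / 25600`. -/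
def s6_15 : Tree :=
  .leaf ⟨1, 11832, 2396, 10000, 191287, (-164111), 100000, 1114000, 689751, 1310249, 1367,
      1000, false, 0, 0, 0, 0, 0⟩

theorem s6_15_ok : checkTree ⟨25600, 20480, 23040, 35840, 39168⟩ s6_15 = true := by
  decide +kernel

/-- The rectangle `[20480, 23040) x [39168, 40832)` in units of `1 / 25600`. -/
def s6_17 : Tree :=
  .leaf ⟨1, 12414, 2115, 10000, 191287, (-164111), 100000, 1114000, 689751, 1310249, 1471,
      1000, false, 0, 0, 0, 0, 0⟩

theorem s6_17_ok : checkTree ⟨25600, 20480, 23040, 39168, 40832⟩ s6_17 = true := by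
  decide +kernel

/-- The rectangle `[20480, 21760) x [40832, 42497)` in units of `1 / 25600`. -/
def s6_19 : Tree :=
  .leaf ⟨1, 12683, 2001, 10000, 177147, (-146435), 100000, 1054000, 722271, 1277729, 1526,
      1000, false, 0, 0, 0, 0, 0⟩

theorem s6_19_ok : checkTree ⟨25600, 20480, 21760, 40832, 42497⟩ s6_19 = true := by
  decide +kernel

/-- The rectangle `[21760, 23040) x [40832, 41664)` in units of `1 / 25600`. -/
def s6_21 : Tree :=
  .leaf ⟨1, 12850, 1934, 10000, 207195, (-181786), 100000, 1180000, 651900, 1348100, 1537,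
      1000, false, 0, 0, 0, 0, 0⟩

theorem s6_21_ok : checkTree ⟨25600, 21760, 23040, 40832, 41664⟩ s6_21 = true := by
  decide +kernel

/-- The rectangle `[21760, 22400) x [41664, 42497)` in units of `1 / 25600`. -/
def s6_23 : Tree :=
  .leaf ⟨1, 12987, 1880, 10000, 197721, (-170640), 100000, 1146000, 671671, 1328329, 1564,
      1000, false, 0, 0, 0, 0, 0⟩

theorem s6_23_ok : checkTree ⟨25600, 21760, 22400, 41664, 42497⟩ s6_23 = true := by
  decide +kernel

/-- The rectangle `[22400, 23040) x [41664, 42497)` in units of `1 / 25600`. -/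
def s6_24 : Tree :=
  .leaf ⟨1, 13121, 1828, 10000, 217227, (-192933), 100000, 1216000, 630336, 1369664, 1578,
      1000, false, 0, 0, 0, 0, 0⟩

theorem s6_24_ok : checkTree ⟨25600, 22400, 23040, 41664, 42497⟩ s6_24 = true := by
  decide +kernel

/-- The rectangle `[21760, 23040) x [41664, 42497)`, cut at `22400`. -/
def s6_22 : Tree :=
  .cutT 22400 s6_23 s6_24

theorem s6_22_ok : checkTree ⟨25600, 21760, 23040, 41664, 42497⟩ s6_22 = true :=
  cutT_ok s6_23_ok s6_24_ok

/-- The rectangle `[21760, 23040) x [40832, 42497)`, cut at `41664`. -/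
def s6_20 : Tree :=
  .cutY 41664 s6_21 s6_22

theorem s6_20_ok : checkTree ⟨25600, 21760, 23040, 40832, 42497⟩ s6_20 = true :=
  cutY_ok s6_21_ok s6_22_ok

/-- The rectangle `[20480, 23040) x [40832, 42497)`, cut at `21760`. -/
def s6_18 : Tree :=
  .cutT 21760 s6_19 s6_20

theorem s6_18_ok : checkTree ⟨25600, 20480, 23040, 40832, 42497⟩ s6_18 = true :=
  cutT_ok s6_19_ok s6_20_ok

/-- The rectangle `[20480, 23040) x [39168, 42497)`, cut at `40832`. -/
def s6_16 : Tree :=
  .cutY 40832 s6_17 s6_18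

theorem s6_16_ok : checkTree ⟨25600, 20480, 23040, 39168, 42497⟩ s6_16 = true :=
  cutY_ok s6_17_ok s6_18_ok

/-- The rectangle `[20480, 23040) x [35840, 42497)`, cut at `39168`. -/
def s6_14 : Tree :=
  .cutY 39168 s6_15 s6_16

theorem s6_14_ok : checkTree ⟨25600, 20480, 23040, 35840, 42497⟩ s6_14 = true :=
  cutY_ok s6_15_ok s6_16_ok

/-- The rectangle `[20480, 23040) x [30720, 42497)`, cut at `35840`. -/
def s6_12 : Tree :=
  .cutY 35840 s6_13 s6_14

theorem s6_12_ok : checkTree ⟨25600, 20480, 23040, 30720, 42497⟩ s6_12 = true :=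
  cutY_ok s6_13_ok s6_14_ok

/-- The rectangle `[20480, 23040) x [20480, 42497)`, cut at `30720`. -/
def s6_8 : Tree :=
  .cutY 30720 s6_9 s6_12

theorem s6_8_ok : checkTree ⟨25600, 20480, 23040, 20480, 42497⟩ s6_8 = true :=
  cutY_ok s6_9_ok s6_12_ok

/-- The rectangle `[20480, 23040) x [0, 42497)`, cut at `20480`. -/
def s6_0 : Tree :=
  .cutY 20480 s6_1 s6_8

theorem s6_0_ok : checkTree ⟨25600, 20480, 23040, 0, 42497⟩ s6_0 = true :=
  cutY_ok s6_1_ok s6_8_ok

/-- The subdivision of the strip. -/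
def strip6 : Tree := s6_0

theorem strip6_ok : checkTree ⟨25600, 20480, 23040, 0, 42497⟩ strip6 = true := s6_0_ok

end Vale.Agent.P237.Four.Checker
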