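import Vale.Agent.P237.Four.CertBasic

/-!
Data of the rectangle certificate for dimension four: strip 7 of the subdivision.
-/

namespace Vale.Agent.P237.Four.Checker

/-- The rectangle `[23040, 24576) x [0, 7680)` in units of `1 / 25600`. -/
def s7_2 : Tree :=
  .leaf ⟨0, 10000, 0, 10000, 277423, (-259817), 100000, 1360000, 537600, 1462400, 10, 1000,
      false, 0, 0, 0, 0, 0⟩

theorem s7_2_ok : checkTree ⟨25600, 23040, 24576, 0, 7680⟩ s7_2 = true := by
  decide +kernel

/-- The rectangle `[23040, 24576) x [7680, 15360)` in units of `1 / 25600`. -/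
def s7_4 : Tree :=
  .leaf ⟨3, 9989, 5084, 10000, 277423, (-259817), 100000, 1360000, 537600, 1462400, 389, 1000,
      false, 0, 0, 0, 0, 0⟩

theorem s7_4_ok : checkTree ⟨25600, 23040, 24576, 7680, 15360⟩ s7_4 = true := by
  decide +kernel

/-- The rectangle `[23040, 24576) x [15360, 20480)` in units of `1 / 25600`. -/
def s7_5 : Tree :=
  .leaf ⟨3, 10003, 4749, 10000, 277423, (-259817), 100000, 1360000, 537600, 1462400, 417, 1000,
      false, 0, 0, 0, 0, 0⟩

theorem s7_5_ok : checkTree ⟨25600, 23040, 24576, 15360, 20480⟩ s7_5 = true := by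
  decide +kernel

/-- The rectangle `[23040, 24576) x [7680, 20480)`, cut at `15360`. -/
def s7_3 : Tree :=
  .cutY 15360 s7_4 s7_5

theorem s7_3_ok : checkTree ⟨25600, 23040, 24576, 7680, 20480⟩ s7_3 = true :=
  cutY_ok s7_4_ok s7_5_ok

/-- The rectangle `[23040, 24576) x [0, 20480)`, cut at `7680`. -/
def s7_1 : Tree :=
  .cutY 7680 s7_2 s7_3

theorem s7_1_ok : checkTree ⟨25600, 23040, 24576, 0, 20480⟩ s7_1 = true :=
  cutY_ok s7_2_ok s7_3_ok

/-- The rectangle `[23040, 24576) x [20480, 25600)` in units of `1 / 25600`. -/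
def s7_8 : Tree :=
  .leaf ⟨2, 10053, 4379, 10000, 277423, (-259817), 100000, 1360000, 537600, 1462400, 822, 1000,
      false, 0, 0, 0, 0, 0⟩

theorem s7_8_ok : checkTree ⟨25600, 23040, 24576, 20480, 25600⟩ s7_8 = true := by
  decide +kernel

/-- The rectangle `[23040, 24576) x [25600, 30720)` in units of `1 / 25600`. -/
def s7_9 : Tree :=
  .leaf ⟨1, 10353, 3611, 10000, 277423, (-259817), 100000, 1360000, 537600, 1462400, 1037,
      1000, false, 0, 0, 0, 0, 0⟩

theorem s7_9_ok : checkTree ⟨25600, 23040, 24576, 25600, 30720⟩ s7_9 = true := by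
  decide +kernel

/-- The rectangle `[23040, 24576) x [20480, 30720)`, cut at `25600`. -/
def s7_7 : Tree :=
  .cutY 25600 s7_8 s7_9

theorem s7_7_ok : checkTree ⟨25600, 23040, 24576, 20480, 30720⟩ s7_7 = true :=
  cutY_ok s7_8_ok s7_9_ok

/-- The rectangle `[23040, 24576) x [30720, 35840)` in units of `1 / 25600`. -/
def s7_11 : Tree :=
  .leaf ⟨1, 11209, 2770, 10000, 277423, (-259817), 100000, 1360000, 537600, 1462400, 1247,
      1000, false, 0, 0, 0, 0, 0⟩

theorem s7_11_ok : checkTree ⟨25600, 23040, 24576, 30720, 35840⟩ s7_11 = true := by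
  decide +kernel

/-- The rectangle `[23040, 24576) x [35840, 39168)` in units of `1 / 25600`. -/
def s7_13 : Tree :=
  .leaf ⟨1, 12182, 2218, 10000, 277423, (-259817), 100000, 1360000, 537600, 1462400, 1418,
      1000, false, 0, 0, 0, 0, 0⟩

theorem s7_13_ok : checkTree ⟨25600, 23040, 24576, 35840, 39168⟩ s7_13 = true := by
  decide +kernel

/-- The rectangle `[23040, 24576) x [39168, 40832)` in units of `1 / 25600`. -/
def s7_15 : Tree :=
  .leaf ⟨1, 12815, 1944, 10000, 277423, (-259817), 100000, 1360000, 537600, 1462400, 1519,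
      1000, false, 0, 0, 0, 0, 0⟩

theorem s7_15_ok : checkTree ⟨25600, 23040, 24576, 39168, 40832⟩ s7_15 = true := by
  decide +kernel

/-- The rectangle `[23040, 24576) x [40832, 42497)` in units of `1 / 25600`. -/
def s7_16 : Tree :=
  .leaf ⟨1, 13234, 1780, 10000, 277423, (-259817), 100000, 1360000, 537600, 1462400, 1585,
      1000, false, 0, 0, 0, 0, 0⟩

theorem s7_16_ok : checkTree ⟨25600, 23040, 24576, 40832, 42497⟩ s7_16 = true := by
  decide +kernel

/-- The rectangle `[23040, 24576) x [39168, 42497)`, cut at `40832`. -/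
def s7_14 : Tree :=
  .cutY 40832 s7_15 s7_16

theorem s7_14_ok : checkTree ⟨25600, 23040, 24576, 39168, 42497⟩ s7_14 = true :=
  cutY_ok s7_15_ok s7_16_ok

/-- The rectangle `[23040, 24576) x [35840, 42497)`, cut at `39168`. -/
def s7_12 : Tree :=
  .cutY 39168 s7_13 s7_14

theorem s7_12_ok : checkTree ⟨25600, 23040, 24576, 35840, 42497⟩ s7_12 = true :=
  cutY_ok s7_13_ok s7_14_ok

/-- The rectangle `[23040, 24576) x [30720, 42497)`, cut at `35840`. -/
def s7_10 : Tree :=
  .cutY 35840 s7_11 s7_12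

theorem s7_10_ok : checkTree ⟨25600, 23040, 24576, 30720, 42497⟩ s7_10 = true :=
  cutY_ok s7_11_ok s7_12_ok

/-- The rectangle `[23040, 24576) x [20480, 42497)`, cut at `30720`. -/
def s7_6 : Tree :=
  .cutY 30720 s7_7 s7_10

theorem s7_6_ok : checkTree ⟨25600, 23040, 24576, 20480, 42497⟩ s7_6 = true :=
  cutY_ok s7_7_ok s7_10_ok

/-- The rectangle `[23040, 24576) x [0, 42497)`, cut at `20480`. -/
def s7_0 : Tree :=
  .cutY 20480 s7_1 s7_6

theorem s7_0_ok : checkTree ⟨25600, 23040, 24576, 0, 42497⟩ s7_0 = true :=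
  cutY_ok s7_1_ok s7_6_ok

/-- The subdivision of the strip. -/
def strip7 : Tree := s7_0

theorem strip7_ok : checkTree ⟨25600, 23040, 24576, 0, 42497⟩ strip7 = true := s7_0_ok

end Vale.Agent.P237.Four.Checker
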