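import Vale.Agent.P237.Four.CertBasic

/-!
Data of the rectangle certificate for dimension four: strip 8 of the subdivision.
-/

namespace Vale.Agent.P237.Four.Checker

/-- The rectangle `[24576, 25344) x [0, 7680)` in units of `1 / 25600`. -/
def s8_2 : Tree :=
  .leaf ⟨0, 10000, 0, 10000, 472583, (-463109), 100000, 1596000, 363196, 1636804, 30, 1000,
      false, 0, 0, 0, 0, 0⟩

theorem s8_2_ok : checkTree ⟨25600, 24576, 25344, 0, 7680⟩ s8_2 = true := by
  decide +kernel

/-- The rectangle `[24576, 25344) x [7680, 15360)` in units of `1 / 25600`. -/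
def s8_4 : Tree :=
  .leaf ⟨0, 10000, 0, 10000, 472583, (-463109), 100000, 1596000, 363196, 1636804, 391, 1000,
      false, 0, 0, 0, 0, 0⟩

theorem s8_4_ok : checkTree ⟨25600, 24576, 25344, 7680, 15360⟩ s8_4 = true := by
  decide +kernel

/-- The rectangle `[24576, 25344) x [15360, 20480)` in units of `1 / 25600`. -/
def s8_5 : Tree :=
  .leaf ⟨3, 10014, 4666, 10000, 472583, (-463109), 100000, 1596000, 363196, 1636804, 664, 1000,
      false, 0, 0, 0, 0, 0⟩

theorem s8_5_ok : checkTree ⟨25600, 24576, 25344, 15360, 20480⟩ s8_5 = true := by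
  decide +kernel

/-- The rectangle `[24576, 25344) x [7680, 20480)`, cut at `15360`. -/
def s8_3 : Tree :=
  .cutY 15360 s8_4 s8_5

theorem s8_3_ok : checkTree ⟨25600, 24576, 25344, 7680, 20480⟩ s8_3 = true :=
  cutY_ok s8_4_ok s8_5_ok

/-- The rectangle `[24576, 25344) x [0, 20480)`, cut at `7680`. -/
def s8_1 : Tree :=
  .cutY 7680 s8_2 s8_3

theorem s8_1_ok : checkTree ⟨25600, 24576, 25344, 0, 20480⟩ s8_1 = true :=
  cutY_ok s8_2_ok s8_3_ok

/-- The rectangle `[24576, 25344) x [20480, 25600)` in units of `1 / 25600`. -/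
def s8_8 : Tree :=
  .leaf ⟨2, 10088, 4274, 10000, 472583, (-463109), 100000, 1596000, 363196, 1636804, 872, 1000,
      false, 0, 0, 0, 0, 0⟩

theorem s8_8_ok : checkTree ⟨25600, 24576, 25344, 20480, 25600⟩ s8_8 = true := by
  decide +kernel

/-- The rectangle `[24576, 25344) x [25600, 30720)` in units of `1 / 25600`. -/
def s8_9 : Tree :=
  .leaf ⟨1, 10439, 3505, 10000, 472583, (-463109), 100000, 1596000, 363196, 1636804, 1077,
      1000, false, 0, 0, 0, 0, 0⟩

theorem s8_9_ok : checkTree ⟨25600, 24576, 25344, 25600, 30720⟩ s8_9 = true := by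
  decide +kernel

/-- The rectangle `[24576, 25344) x [20480, 30720)`, cut at `25600`. -/
def s8_7 : Tree :=
  .cutY 25600 s8_8 s8_9

theorem s8_7_ok : checkTree ⟨25600, 24576, 25344, 20480, 30720⟩ s8_7 = true :=
  cutY_ok s8_8_ok s8_9_ok

/-- The rectangle `[24576, 25344) x [30720, 35840)` in units of `1 / 25600`. -/
def s8_11 : Tree :=
  .leaf ⟨1, 11369, 2666, 10000, 472583, (-463109), 100000, 1596000, 363196, 1636804, 1281,
      1000, false, 0, 0, 0, 0, 0⟩

theorem s8_11_ok : checkTree ⟨25600, 24576, 25344, 30720, 35840⟩ s8_11 = true := by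
  decide +kernel

/-- The rectangle `[24576, 25344) x [35840, 42497)` in units of `1 / 25600`. -/
def s8_12 : Tree :=
  .leaf ⟨1, 12729, 1937, 10000, 472583, (-463109), 100000, 1596000, 363196, 1636804, 1514,
      1000, false, 0, 0, 0, 0, 0⟩

theorem s8_12_ok : checkTree ⟨25600, 24576, 25344, 35840, 42497⟩ s8_12 = true := by
  decide +kernel

/-- The rectangle `[24576, 25344) x [30720, 42497)`, cut at `35840`. -/
def s8_10 : Tree :=
  .cutY 35840 s8_11 s8_12

theorem s8_10_ok : checkTree ⟨25600, 24576, 25344, 30720, 42497⟩ s8_10 = true :=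
  cutY_ok s8_11_ok s8_12_ok

/-- The rectangle `[24576, 25344) x [20480, 42497)`, cut at `30720`. -/
def s8_6 : Tree :=
  .cutY 30720 s8_7 s8_10

theorem s8_6_ok : checkTree ⟨25600, 24576, 25344, 20480, 42497⟩ s8_6 = true :=
  cutY_ok s8_7_ok s8_10_ok

/-- The rectangle `[24576, 25344) x [0, 42497)`, cut at `20480`. -/
def s8_0 : Tree :=
  .cutY 20480 s8_1 s8_6

theorem s8_0_ok : checkTree ⟨25600, 24576, 25344, 0, 42497⟩ s8_0 = true :=
  cutY_ok s8_1_ok s8_6_ok

/-- The subdivision of the strip. -/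
def strip8 : Tree := s8_0

theorem strip8_ok : checkTree ⟨25600, 24576, 25344, 0, 42497⟩ strip8 = true := s8_0_ok

end Vale.Agent.P237.Four.Checker
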