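import Vale.Agent.P237.Four.CertBasic

/-!
Data of the rectangle certificate for dimension four: strip 9 of the subdivision.
-/

namespace Vale.Agent.P237.Four.Checker

/-- The rectangle `[25344, 25600) x [0, 7680)` in units of `1 / 25600`. -/
def s9_2 : Tree :=
  .leaf ⟨0, 10000, 0, 10000, 1410672, (-1410672), 100000, 1810000, 180975, 1819025, 112, 1000,
      false, 0, 0, 0, 0, 0⟩

theorem s9_2_ok : checkTree ⟨25600, 25344, 25600, 0, 7680⟩ s9_2 = true := by
  decide +kernel

/-- The rectangle `[25344, 25600) x [7680, 15360)` in units of `1 / 25600`. -/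
def s9_4 : Tree :=
  .leaf ⟨0, 10000, 0, 10000, 1410672, (-1410672), 100000, 1810000, 180975, 1819025, 439, 1000,
      false, 0, 0, 0, 0, 0⟩

theorem s9_4_ok : checkTree ⟨25600, 25344, 25600, 7680, 15360⟩ s9_4 = true := by
  decide +kernel

/-- The rectangle `[25344, 25600) x [15360, 20480)` in units of `1 / 25600`. -/
def s9_5 : Tree :=
  .leaf ⟨3, 10021, 4627, 10000, 1410672, (-1410672), 100000, 1810000, 180975, 1819025, 693,
      1000, false, 0, 0, 0, 0, 0⟩

theorem s9_5_ok : checkTree ⟨25600, 25344, 25600, 15360, 20480⟩ s9_5 = true := by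
  decide +kernel

/-- The rectangle `[25344, 25600) x [7680, 20480)`, cut at `15360`. -/
def s9_3 : Tree :=
  .cutY 15360 s9_4 s9_5

theorem s9_3_ok : checkTree ⟨25600, 25344, 25600, 7680, 20480⟩ s9_3 = true :=
  cutY_ok s9_4_ok s9_5_ok

/-- The rectangle `[25344, 25600) x [0, 20480)`, cut at `7680`. -/
def s9_1 : Tree :=
  .cutY 7680 s9_2 s9_3

theorem s9_1_ok : checkTree ⟨25600, 25344, 25600, 0, 20480⟩ s9_1 = true :=
  cutY_ok s9_2_ok s9_3_ok

/-- The rectangle `[25344, 25600) x [20480, 25600)` in units of `1 / 25600`. -/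
def s9_8 : Tree :=
  .leaf ⟨2, 10108, 4225, 10000, 1410672, (-1410672), 100000, 1810000, 180975, 1819025, 894,
      1000, false, 0, 0, 0, 0, 0⟩

theorem s9_8_ok : checkTree ⟨25600, 25344, 25600, 20480, 25600⟩ s9_8 = true := by
  decide +kernel

/-- The rectangle `[25344, 25600) x [25600, 30720)` in units of `1 / 25600`. -/
def s9_9 : Tree :=
  .leaf ⟨1, 10485, 3457, 10000, 1410672, (-1410672), 100000, 1810000, 180975, 1819025, 1095,
      1000, false, 0, 0, 0, 0, 0⟩

theorem s9_9_ok : checkTree ⟨25600, 25344, 25600, 25600, 30720⟩ s9_9 = true := by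
  decide +kernel

/-- The rectangle `[25344, 25600) x [20480, 30720)`, cut at `25600`. -/
def s9_7 : Tree :=
  .cutY 25600 s9_8 s9_9

theorem s9_7_ok : checkTree ⟨25600, 25344, 25600, 20480, 30720⟩ s9_7 = true :=
  cutY_ok s9_8_ok s9_9_ok

/-- The rectangle `[25344, 25600) x [30720, 35840)` in units of `1 / 25600`. -/
def s9_11 : Tree :=
  .leaf ⟨1, 11446, 2621, 10000, 1410672, (-1410672), 100000, 1810000, 180975, 1819025, 1296,
      1000, false, 0, 0, 0, 0, 0⟩

theorem s9_11_ok : checkTree ⟨25600, 25344, 25600, 30720, 35840⟩ s9_11 = true := by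
  decide +kernel

/-- The rectangle `[25344, 25600) x [35840, 42497)` in units of `1 / 25600`. -/
def s9_12 : Tree :=
  .leaf ⟨1, 12839, 1897, 10000, 1410672, (-1410672), 100000, 1810000, 180975, 1819025, 1527,
      1000, false, 0, 0, 0, 0, 0⟩

theorem s9_12_ok : checkTree ⟨25600, 25344, 25600, 35840, 42497⟩ s9_12 = true := by
  decide +kernel

/-- The rectangle `[25344, 25600) x [30720, 42497)`, cut at `35840`. -/
def s9_10 : Tree :=
  .cutY 35840 s9_11 s9_12

theorem s9_10_ok : checkTree ⟨25600, 25344, 25600, 30720, 42497⟩ s9_10 = true :=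
  cutY_ok s9_11_ok s9_12_ok

/-- The rectangle `[25344, 25600) x [20480, 42497)`, cut at `30720`. -/
def s9_6 : Tree :=
  .cutY 30720 s9_7 s9_10

theorem s9_6_ok : checkTree ⟨25600, 25344, 25600, 20480, 42497⟩ s9_6 = true :=
  cutY_ok s9_7_ok s9_10_ok

/-- The rectangle `[25344, 25600) x [0, 42497)`, cut at `20480`. -/
def s9_0 : Tree :=
  .cutY 20480 s9_1 s9_6

theorem s9_0_ok : checkTree ⟨25600, 25344, 25600, 0, 42497⟩ s9_0 = true :=
  cutY_ok s9_1_ok s9_6_ok

/-- The subdivision of the strip. -/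
def strip9 : Tree := s9_0

theorem strip9_ok : checkTree ⟨25600, 25344, 25600, 0, 42497⟩ strip9 = true := s9_0_ok

end Vale.Agent.P237.Four.Checker
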