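import Vale.Agent.P237.Four.CertBasic

/-!
Data of the rectangle certificate for dimension four: strip 0 of the subdivision.
-/

namespace Vale.Agent.P237.Four.Checker

/-- The rectangle `[0, 5120) x [0, 7680)` in units of `1 / 25600`. -/
def s0_2 : Tree :=
  .empty

theorem s0_2_ok : checkTree ⟨25600, 0, 5120, 0, 7680⟩ s0_2 = true := by
  decide +kernel

/-- The rectangle `[0, 5120) x [7680, 15360)` in units of `1 / 25600`. -/
def s0_4 : Tree :=
  .empty

theorem s0_4_ok : checkTree ⟨25600, 0, 5120, 7680, 15360⟩ s0_4 = true := by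
  decide +kernel

/-- The rectangle `[0, 5120) x [15360, 20480)` in units of `1 / 25600`. -/
def s0_5 : Tree :=
  .empty

theorem s0_5_ok : checkTree ⟨25600, 0, 5120, 15360, 20480⟩ s0_5 = true := by
  decide +kernel

/-- The rectangle `[0, 5120) x [7680, 20480)`, cut at `15360`. -/
def s0_3 : Tree :=
  .cutY 15360 s0_4 s0_5

theorem s0_3_ok : checkTree ⟨25600, 0, 5120, 7680, 20480⟩ s0_3 = true :=
  cutY_ok s0_4_ok s0_5_ok

/-- The rectangle `[0, 5120) x [0, 20480)`, cut at `7680`. -/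
def s0_1 : Tree :=
  .cutY 7680 s0_2 s0_3

theorem s0_1_ok : checkTree ⟨25600, 0, 5120, 0, 20480⟩ s0_1 = true :=
  cutY_ok s0_2_ok s0_3_ok

/-- The rectangle `[0, 5120) x [20480, 25600)` in units of `1 / 25600`. -/
def s0_8 : Tree :=
  .leaf ⟨0, 10000, 0, 10000, 99999, (-10103), 100000, 100000, 997500, 1002500, 30, 1000, false,
      0, 480000000000000000000, 4788000000000000000000, 0, 0⟩

theorem s0_8_ok : checkTree ⟨25600, 0, 5120, 20480, 25600⟩ s0_8 = true := by
  decide +kernel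

/-- The rectangle `[0, 5120) x [25600, 30720)` in units of `1 / 25600`. -/
def s0_9 : Tree :=
  .leaf ⟨1, 9998, 4836, 10000, 99999, (-10103), 100000, 100000, 997500, 1002500, 469, 1000,
      false, 0, 0, 0, 0, 0⟩

theorem s0_9_ok : checkTree ⟨25600, 0, 5120, 25600, 30720⟩ s0_9 = true := by
  decide +kernel

/-- The rectangle `[0, 5120) x [20480, 30720)`, cut at `25600`. -/
def s0_7 : Tree :=
  .cutY 25600 s0_8 s0_9

theorem s0_7_ok : checkTree ⟨25600, 0, 5120, 20480, 30720⟩ s0_7 = true :=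
  cutY_ok s0_8_ok s0_9_ok

/-- The rectangle `[0, 2560) x [30720, 35840)` in units of `1 / 25600`. -/
def s0_12 : Tree :=
  .leaf ⟨1, 9998, 4826, 10000, 99999, (-5013), 100000, 50000, 999375, 1000625, 832, 1000,
      false, 0, 0, 0, 0, 0⟩

theorem s0_12_ok : checkTree ⟨25600, 0, 2560, 30720, 35840⟩ s0_12 = true := by
  decide +kernel

/-- The rectangle `[2560, 5120) x [30720, 33280)` in units of `1 / 25600`. -/
def s0_14 : Tree :=
  .leaf ⟨1, 10015, 4672, 10000, 101016, (-15192), 100000, 150000, 994375, 1005625, 765, 1000,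
      false, 0, 0, 0, 0, 0⟩

theorem s0_14_ok : checkTree ⟨25600, 2560, 5120, 30720, 33280⟩ s0_14 = true := by
  decide +kernel

/-- The rectangle `[2560, 5120) x [33280, 35840)` in units of `1 / 25600`. -/
def s0_15 : Tree :=
  .leaf ⟨1, 10033, 4542, 10000, 101016, (-15192), 100000, 150000, 994375, 1005625, 919, 1000,
      false, 0, 0, 0, 0, 0⟩

theorem s0_15_ok : checkTree ⟨25600, 2560, 5120, 33280, 35840⟩ s0_15 = true := by
  decide +kernel

/-- The rectangle `[2560, 5120) x [30720, 35840)`, cut at `33280`. -/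
def s0_13 : Tree :=
  .cutY 33280 s0_14 s0_15

theorem s0_13_ok : checkTree ⟨25600, 2560, 5120, 30720, 35840⟩ s0_13 = true :=
  cutY_ok s0_14_ok s0_15_ok

/-- The rectangle `[0, 5120) x [30720, 35840)`, cut at `2560`. -/
def s0_11 : Tree :=
  .cutT 2560 s0_12 s0_13

theorem s0_11_ok : checkTree ⟨25600, 0, 5120, 30720, 35840⟩ s0_11 = true :=
  cutT_ok s0_12_ok s0_13_ok

/-- The rectangle `[0, 5120) x [35840, 39168)` in units of `1 / 25600`. -/
def s0_17 : Tree :=
  .leaf ⟨1, 9998, 4539, 10000, 99999, (-10103), 100000, 100000, 997500, 1002500, 1075, 1000,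
      false, 0, 0, 0, 0, 0⟩

theorem s0_17_ok : checkTree ⟨25600, 0, 5120, 35840, 39168⟩ s0_17 = true := by
  decide +kernel

/-- The rectangle `[0, 2560) x [39168, 40832)` in units of `1 / 25600`. -/
def s0_20 : Tree :=
  .leaf ⟨1, 9998, 4726, 10000, 99999, (-5013), 100000, 50000, 999375, 1000625, 1202, 1000,
      false, 0, 0, 0, 0, 0⟩

theorem s0_20_ok : checkTree ⟨25600, 0, 2560, 39168, 40832⟩ s0_20 = true := by
  decide +kernel

/-- The rectangle `[0, 1280) x [40832, 42497)` in units of `1 / 25600`. -/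
def s0_22 : Tree :=
  .leaf ⟨1, 9998, 4841, 10000, 99999, (-2502), 100000, 26000, 999831, 1000169, 1284, 1000,
      false, 0, 0, 0, 0, 0⟩

theorem s0_22_ok : checkTree ⟨25600, 0, 1280, 40832, 42497⟩ s0_22 = true := by
  decide +kernel

/-- The rectangle `[1280, 2560) x [40832, 42497)` in units of `1 / 25600`. -/
def s0_23 : Tree :=
  .leaf ⟨1, 10033, 4559, 10000, 100250, (-7524), 100000, 76000, 998556, 1001444, 1286, 1000,
      false, 0, 0, 0, 0, 0⟩

theorem s0_23_ok : checkTree ⟨25600, 1280, 2560, 40832, 42497⟩ s0_23 = true := by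
  decide +kernel

/-- The rectangle `[0, 2560) x [40832, 42497)`, cut at `1280`. -/
def s0_21 : Tree :=
  .cutT 1280 s0_22 s0_23

theorem s0_21_ok : checkTree ⟨25600, 0, 2560, 40832, 42497⟩ s0_21 = true :=
  cutT_ok s0_22_ok s0_23_ok

/-- The rectangle `[0, 2560) x [39168, 42497)`, cut at `40832`. -/
def s0_19 : Tree :=
  .cutY 40832 s0_20 s0_21

theorem s0_19_ok : checkTree ⟨25600, 0, 2560, 39168, 42497⟩ s0_19 = true :=
  cutY_ok s0_20_ok s0_21_ok

/-- The rectangle `[2560, 5120) x [39168, 40832)` in units of `1 / 25600`. -/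
def s0_25 : Tree :=
  .leaf ⟨1, 10099, 4262, 10000, 101016, (-15192), 100000, 150000, 994375, 1005625, 1210, 1000,
      false, 0, 0, 0, 0, 0⟩

theorem s0_25_ok : checkTree ⟨25600, 2560, 5120, 39168, 40832⟩ s0_25 = true := by
  decide +kernel

/-- The rectangle `[2560, 5120) x [40832, 42497)` in units of `1 / 25600`. -/
def s0_26 : Tree :=
  .leaf ⟨1, 10127, 4172, 10000, 101016, (-15192), 100000, 150000, 994375, 1005625, 1293, 1000,
      false, 0, 0, 0, 0, 0⟩

theorem s0_26_ok : checkTree ⟨25600, 2560, 5120, 40832, 42497⟩ s0_26 = true := by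
  decide +kernel

/-- The rectangle `[2560, 5120) x [39168, 42497)`, cut at `40832`. -/
def s0_24 : Tree :=
  .cutY 40832 s0_25 s0_26

theorem s0_24_ok : checkTree ⟨25600, 2560, 5120, 39168, 42497⟩ s0_24 = true :=
  cutY_ok s0_25_ok s0_26_ok

/-- The rectangle `[0, 5120) x [39168, 42497)`, cut at `2560`. -/
def s0_18 : Tree :=
  .cutT 2560 s0_19 s0_24

theorem s0_18_ok : checkTree ⟨25600, 0, 5120, 39168, 42497⟩ s0_18 = true :=
  cutT_ok s0_19_ok s0_24_ok

/-- The rectangle `[0, 5120) x [35840, 42497)`, cut at `39168`. -/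
def s0_16 : Tree :=
  .cutY 39168 s0_17 s0_18

theorem s0_16_ok : checkTree ⟨25600, 0, 5120, 35840, 42497⟩ s0_16 = true :=
  cutY_ok s0_17_ok s0_18_ok

/-- The rectangle `[0, 5120) x [30720, 42497)`, cut at `35840`. -/
def s0_10 : Tree :=
  .cutY 35840 s0_11 s0_16

theorem s0_10_ok : checkTree ⟨25600, 0, 5120, 30720, 42497⟩ s0_10 = true :=
  cutY_ok s0_11_ok s0_16_ok

/-- The rectangle `[0, 5120) x [20480, 42497)`, cut at `30720`. -/
def s0_6 : Tree :=
  .cutY 30720 s0_7 s0_10

theorem s0_6_ok : checkTree ⟨25600, 0, 5120, 20480, 42497⟩ s0_6 = true :=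
  cutY_ok s0_7_ok s0_10_ok

/-- The rectangle `[0, 5120) x [0, 42497)`, cut at `20480`. -/
def s0_0 : Tree :=
  .cutY 20480 s0_1 s0_6

theorem s0_0_ok : checkTree ⟨25600, 0, 5120, 0, 42497⟩ s0_0 = true :=
  cutY_ok s0_1_ok s0_6_ok

/-- The subdivision of the strip. -/
def strip0 : Tree := s0_0

theorem strip0_ok : checkTree ⟨25600, 0, 5120, 0, 42497⟩ strip0 = true := s0_0_ok

end Vale.Agent.P237.Four.Checker
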